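import Vale.Agent.P099.R2.H278.AllFilt
import Vale.Agent.P099.R2.H278.Centre
import Vale.Agent.P099.R2.H278.Tri
import Vale.Agent.P099.R2.H717.Joint
import Vale.Agent.P099.R2.H717.Dens2

open MeasureTheory Set Filter Topology

namespace Vale.Agent.Results.P099.LargeCircles

open Vale.Agent.P099 Vale.Agent.P099T

/-- The billiard circle of radius `t` centred at `x` is the set of all `Φ t (x, θ)`. The
discrepancy of its arc with directions in `I` for the set `A` of phase points. -/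
noncomputable def disc (μ : Measure (ℂ × ℂ)) (Φ : ℝ → ℂ × ℂ → ℂ × ℂ) (A : Set (ℂ × ℂ))
    (I : Set ℂ) (t : ℝ) (x : ℂ) : ℝ :=
  nu.real (I ∩ {θ | Φ t (x, θ) ∈ A}) - nu.real I * μ.real A

/-- The mean square of the discrepancy over a uniform centre in the table `Q`. -/
noncomputable def circ (Q : Set ℂ) (μ : Measure (ℂ × ℂ)) (Φ : ℝ → ℂ × ℂ → ℂ × ℂ)
    (A : Set (ℂ × ℂ)) (I : Set ℂ) (t : ℝ) : ℝ :=
  ∫ x, disc μ Φ A I t x ^ 2 ∂(ProbabilityTheory.cond volume Q)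

/-- The theorem for the table `Q` with phase measure `μ`; `irr`: the table is irrational;
`flow Φ`: `Φ` is the billiard flow.
(1) The flow is mixing if and only if all arcs of large circles equidistribute in mean square.
(2) The same for each set `A` and along every filter `l` of times.
(3) Irrational: along one set `J` of radii of density one all arcs of circles equidistribute in
mean square, and the flow mixes.
(4) Irrational: for almost every centre all arcs of circles equidistribute in the mean over the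
radii in any arithmetic progression.
(5) Irrational: for almost every centre there is a set of radii of density one along which all
arcs of circles equidistribute, for all continuous functions of the phase point.
(6) Irrational: for almost every point and almost every pair of directions the two orbits are
jointly equidistributed. -/
def CircleTheorem (Q : Set ℂ) (μ : Measure (ℂ × ℂ)) (irr : Prop)
    (flow : (ℝ → ℂ × ℂ → ℂ × ℂ) → Prop) : Prop :=
  (∀ Φ, flow Φ →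
    ((∀ A B : Set (ℂ × ℂ), MeasurableSet A → MeasurableSet B →
        Tendsto (fun t : ℝ => μ.real (Φ t ⁻¹' A ∩ B)) atTop (𝓝 (μ.real A * μ.real B))) ↔
      ∀ (A : Set (ℂ × ℂ)) (I : Set ℂ), MeasurableSet A → MeasurableSet I →
        Tendsto (fun t : ℝ => circ Q μ Φ A I t) atTop (𝓝 0))) ∧
  (∀ Φ, flow Φ → ∀ A : Set (ℂ × ℂ), MeasurableSet A → ∀ l : Filter ℝ,
    ((∀ B : Set (ℂ × ℂ), MeasurableSet B →
        Tendsto (fun t => μ.real (Φ t ⁻¹' A ∩ B)) l (𝓝 (μ.real A * μ.real B))) ↔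
      ∀ I : Set ℂ, MeasurableSet I → Tendsto (fun t => circ Q μ Φ A I t) l (𝓝 0))) ∧
  (irr → ∃ J : Set ℝ, MeasurableSet J ∧
    Tendsto (fun R : ℝ => volume.real (J ∩ Ioc 0 R) / R) atTop (𝓝 1) ∧
    ∀ Φ, flow Φ →
      (∀ (A : Set (ℂ × ℂ)) (I : Set ℂ), MeasurableSet A → MeasurableSet I →
        Tendsto (fun t => circ Q μ Φ A I t) (atTop ⊓ 𝓟 J) (𝓝 0)) ∧
      ∀ A B : Set (ℂ × ℂ), MeasurableSet A → MeasurableSet B →
        Tendsto (fun t => μ.real (Φ t ⁻¹' A ∩ B)) (atTop ⊓ 𝓟 J) (𝓝 (μ.real A * μ.real B))) ∧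
  (irr → ∀ Φ, flow Φ → ∀ τ : ℝ, τ ≠ 0 → ∀ A : Set (ℂ × ℂ), MeasurableSet A →
    ∀ᵐ x ∂(ProbabilityTheory.cond volume Q), ∀ I : Set ℂ, MeasurableSet I →
      Tendsto (fun n : ℕ => (n : ℝ)⁻¹ * ∑ k ∈ Finset.range n, disc μ Φ A I (k * τ) x ^ 2)
        atTop (𝓝 0)) ∧
  (irr → ∀ Φ, flow Φ → ∀ᵐ x ∂(ProbabilityTheory.cond volume Q), ∃ J : Set ℝ, MeasurableSet J ∧
    Tendsto (fun R : ℝ => volume.real (J ∩ Ioc 0 R) / R) atTop (𝓝 1) ∧
    ∀ I : Set ℂ, MeasurableSet I → ∀ g : ℂ × ℂ → ℝ, Continuous g →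
      Tendsto (fun t : ℝ => ∫ θ in I, g (Φ t (x, θ)) ∂nu) (atTop ⊓ 𝓟 J)
        (𝓝 (nu.real I * ∫ z, g z ∂μ))) ∧
  (irr → ∀ Φ, flow Φ → ∀ τ : ℝ, τ ≠ 0 →
    ∀ᵐ ω ∂((ProbabilityTheory.cond volume Q).prod (nu.prod nu)),
      ∀ F : (ℂ × ℂ) × (ℂ × ℂ) → ℝ, Continuous F →
        Tendsto (fun n : ℕ => (n : ℝ)⁻¹ * ∑ k ∈ Finset.range n,
          F (Φ (k * τ) (ω.1, ω.2.1), Φ (k * τ) (ω.1, ω.2.2))) atTop (𝓝 (∫ z, F z ∂(μ.prod μ))))

/-- The theorem holds for every polygonal table and, literally, for every triangle. -/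
theorem result :
    (∀ (N : ℕ) (T : PolygonalTable N), CircleTheorem T.Q T.mu T.IsIrrational T.IsBilliardFlow) ∧
    ∀ T : Triangle, CircleTheorem T.table T.mu T.IsIrrational T.IsBilliardFlow := by
  have main : ∀ (N : ℕ) (T : PolygonalTable N),
      CircleTheorem T.Q T.mu T.IsIrrational T.IsBilliardFlow := by
    intro N T
    refine ⟨fun Φ hΦ => ?_, fun Φ hΦ A hA l => ?_, fun hT => ?_,
      fun hT Φ hΦ τ hτ A hA => Vale.Agent.P099.R2.H278.centre_table T hT hΦ hτ hA,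
      fun hT Φ hΦ => Vale.Agent.P099.H717.front_density T hT hΦ,
      fun hT Φ hΦ τ hτ => Vale.Agent.P099.H717.front_joint T hT hΦ hτ⟩
    · constructor
      · intro h A I hA hI
        exact (Vale.Agent.P099.R2.H278.circ_iff_all T hΦ hA atTop).1
          (fun B hB => h A B hA hB) I hI
      · intro h A B hA hB
        exact (Vale.Agent.P099.R2.H278.circ_iff_all T hΦ hA atTop).2
          (fun I hI => h A I hA hI) B hB
    · exact Vale.Agent.P099.R2.H278.circ_iff_all T hΦ hA l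
    · obtain ⟨J, hJ, h1, h2⟩ := Vale.Agent.P099.R2.H278.exists_times T hT
      refine ⟨J, hJ, h1, fun Φ hΦ => ⟨fun A I hA hI => ?_, h2 Φ hΦ⟩⟩
      exact (Vale.Agent.P099.R2.H278.circ_iff_all T hΦ hA _).1
        (fun B hB => h2 Φ hΦ A B hA hB) I hI
  refine ⟨main, fun T => ?_⟩
  obtain ⟨S, hQ, ha, hb⟩ := Vale.Agent.P099.R2.H278.exists_table T
  obtain ⟨hmu, hfl, hirr⟩ := Vale.Agent.P099.R2.H278.table_transfer T hQ ha hb
  have h := main 3 S
  rw [hQ, hmu] at h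
  obtain ⟨h1, h2, h3, h4, h5, h6⟩ := h
  exact ⟨fun Φ hΦ => h1 Φ ((hfl Φ).2 hΦ), fun Φ hΦ => h2 Φ ((hfl Φ).2 hΦ),
    fun hT => (h3 (hirr hT)).imp fun J hJ => ⟨hJ.1, hJ.2.1, fun Φ hΦ => hJ.2.2 Φ ((hfl Φ).2 hΦ)⟩,
    fun hT Φ hΦ => h4 (hirr hT) Φ ((hfl Φ).2 hΦ), fun hT Φ hΦ => h5 (hirr hT) Φ ((hfl Φ).2 hΦ),
    fun hT Φ hΦ => h6 (hirr hT) Φ ((hfl Φ).2 hΦ)⟩

end Vale.Agent.Results.P099.LargeCircles
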