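import Vale.Agent.P099.R2.H525.Gen4

open MeasureTheory Set Filter Topology

namespace Vale.Agent.Results.P099.RateOfMixing

open Vale.Agent.P099 Vale.Agent.P099T

/-- Covariance at time `t` of the functions `f` and `g` of the direction alone: the direction of
the billiard point at time `t` is `(Φ t p).2`, its initial direction is `p.2`. -/
noncomputable def cov (m : Measure (ℂ × ℂ)) (Φ : ℝ → ℂ × ℂ → ℂ × ℂ) (f g : ℂ → ℂ) (t : ℝ) : ℂ :=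
  ∫ p, f (Φ t p).2 * g p.2 ∂m - (∫ u, f u ∂nu) * ∫ u, g u ∂nu

/-- `f` is Lipschitz on the unit circle. -/
def IsLip (f : ℂ → ℂ) : Prop := ∃ K, LipschitzOnWith K f (Metric.sphere 0 1)

/-- `f` is real analytic in the plane. -/
def IsAnalytic (f : ℂ → ℂ) : Prop := AnalyticOnNhd ℝ f univ

/-- (1) EVERY polygonal table with `N` walls: at every time `t ≥ 1` the characters of the direction
are strongly correlated at some frequency `L ≤ C * t ^ (N - 1)`.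
(2) EVERY rate of mixing `φ` common to all pairs of Lipschitz functions of the direction (with
constants depending on the pair) is at least `c / t ^ (2 * (N - 1))`; for triangles `c / t ^ 4`.
(3) For every function `φ → 0` there is an irrational triangle for which `φ` is not a rate of
mixing, not even for real analytic functions of the direction.
(4) The same holds for the Baire-generic triangle: the set of all `z` such that the triangle with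
vertices `0`, `1`, `z` has the rate of mixing `φ` for real analytic functions of the direction is
meagre. -/
theorem result :
    (∀ (N : ℕ) (T : PolygonalTable N), ∃ C : ℝ, 0 < C ∧
      ∀ Φ : ℝ → ℂ × ℂ → ℂ × ℂ, T.IsBilliardFlow Φ → ∀ t : ℝ, 1 ≤ t →
        ∃ L : ℕ, 1 ≤ L ∧ (L : ℝ) ≤ C * t ^ (N - 1) ∧
          1 / 2 ≤ ‖∫ p, (Φ t p).2 ^ L * (starRingEnd ℂ p.2) ^ L ∂T.mu‖ +
            ‖∫ p, (Φ t p).2 ^ L * p.2 ^ L ∂T.mu‖) ∧
    (∀ (N : ℕ) (T : PolygonalTable N) (Φ : ℝ → ℂ × ℂ → ℂ × ℂ), T.IsBilliardFlow Φ →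
      ∀ φ : ℝ → ℝ, (∀ t, 0 < φ t) →
      (∀ f g : ℂ → ℂ, IsLip f → IsLip g → ∃ K : ℝ, ∀ t ≥ (1 : ℝ),
        ‖cov T.mu Φ f g t‖ ≤ K * φ t) →
      ∃ c : ℝ, 0 < c ∧ ∀ t ≥ (1 : ℝ), c / t ^ (2 * (N - 1)) ≤ φ t) ∧
    (∀ (T : Triangle) (Φ : ℝ → ℂ × ℂ → ℂ × ℂ), T.IsBilliardFlow Φ →
      ∀ φ : ℝ → ℝ, (∀ t, 0 < φ t) →
      (∀ f g : ℂ → ℂ, IsLip f → IsLip g → ∃ K : ℝ, ∀ t ≥ (1 : ℝ),
        ‖cov T.mu Φ f g t‖ ≤ K * φ t) →
      ∃ c : ℝ, 0 < c ∧ ∀ t ≥ (1 : ℝ), c / t ^ 4 ≤ φ t) ∧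
    (∀ φ : ℝ → ℝ, (∀ t, 0 < φ t) → Tendsto φ atTop (𝓝 0) →
      ∃ T : Triangle, T.IsIrrational ∧ (∃ Φ, T.IsBilliardFlow Φ) ∧
        ∀ Φ : ℝ → ℂ × ℂ → ℂ × ℂ, T.IsBilliardFlow Φ →
          ¬ ∀ f g : ℂ → ℂ, IsAnalytic f → IsAnalytic g → ∃ K : ℝ, ∀ t ≥ (1 : ℝ),
            ‖cov T.mu Φ f g t‖ ≤ K * φ t) ∧
    (∀ φ : ℝ → ℝ, (∀ t, 0 < φ t) → Tendsto φ atTop (𝓝 0) →
      IsMeagre {z : ℂ | ∃ T : Triangle, T.P 0 = 0 ∧ T.P 1 = 1 ∧ T.P 2 = z ∧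
        ∃ Φ : ℝ → ℂ × ℂ → ℂ × ℂ, T.IsBilliardFlow Φ ∧
          ∀ f g : ℂ → ℂ, IsAnalytic f → IsAnalytic g → ∃ K : ℝ, ∀ t ≥ (1 : ℝ),
            ‖cov T.mu Φ f g t‖ ≤ K * φ t}) := by
  refine ⟨fun N T => Vale.Agent.P099.R2.H525.nodecay T,
    fun N T Φ hΦ φ hφ h => Vale.Agent.P099.R2.H525.rate_lower T hΦ φ hφ h,
    fun T Φ hΦ φ hφ h => ?_,
    fun φ hφ hlim => Vale.Agent.P099.R2.H525.no_rate φ hφ hlim,
    fun φ hφ hlim => Vale.Agent.P099.R2.H525.generic_no_rate φ hφ hlim⟩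
  obtain ⟨S, hQ, hSa, hSb⟩ := Vale.Agent.P099.R2.H278.exists_table T
  obtain ⟨hmu, hfl, -⟩ := Vale.Agent.P099.R2.H278.table_transfer T hQ hSa hSb
  rw [← hmu] at h
  exact Vale.Agent.P099.R2.H525.rate_lower S ((hfl Φ).2 hΦ) φ hφ h

end Vale.Agent.Results.P099.RateOfMixing
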